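import Mathlib.Analysis.SpecialFunctions.Exp
import Mathlib.Topology.Algebra.Order.LiminfLimsup
import Mathlib.Tactic

/-!
# P196, AM7b: from a finite superposition to almost invariant vectors (abstract form)

`Ω M` is the finite space of tables at scale `M`, `Ψ M x` the product vector of the field `x`,
`T M g` the lift of the generator `g`, `act g` the action of the generator on fields.
-/

open Filter Topology

namespace Vale.Agent.P196.H964

lemma bilin' {α Ω : Type*} [Fintype Ω] [Fintype α] (p : α → ℝ) (f g : α → Ω → ℝ) :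
    ∑ ω, (∑ a, p a * f a ω) * (∑ a, p a * g a ω)
      = ∑ a, ∑ a', p a * p a' * ∑ ω, f a ω * g a' ω := by
  have h1 : ∀ ω, (∑ a, p a * f a ω) * (∑ a, p a * g a ω)
      = ∑ a, ∑ a', p a * p a' * (f a ω * g a' ω) := by
    intro ω
    rw [Finset.sum_mul_sum]
    refine Finset.sum_congr rfl fun a _ => Finset.sum_congr rfl fun a' _ => ?_
    ring
  simp only [h1]
  rw [Finset.sum_comm]
  refine Finset.sum_congr rfl fun a _ => ?_
  rw [Finset.sum_comm]
  refine Finset.sum_congr rfl fun a' _ => ?_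
  rw [Finset.mul_sum]

/-- **Almost invariant vectors** from a superposition `(p, z)` which is almost invariant for the
limit kernel `k`, asymptotic overlaps and asymptotic equivariance. -/
theorem almost_inv_abs {Fd G₀ α : Type*} [Finite G₀] [Fintype α]
    (k : Fd → Fd → ℝ) (act : G₀ → Fd → Fd) (p : α → ℝ) (z : α → Fd)
    {ε : ℝ} (hε : 0 < ε)
    (hS : 0 < ∑ a, ∑ a', p a * p a' * k (z a) (z a'))
    (hinv : ∀ g, (1 - ε) * (∑ a, ∑ a', p a * p a' * k (z a) (z a'))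
      ≤ ∑ a, ∑ a', p a * p a' * k (act g (z a)) (z a'))
    {Ω : ℕ → Type*} [∀ M, Fintype (Ω M)]
    (Ψ : ∀ M, Fd → Ω M → ℝ) (T : ∀ M, G₀ → Equiv.Perm (Ω M)) (Good : ∀ M, Set (Ω M))
    (hlim : ∀ x y, Tendsto (fun M => ∑ ω, Ψ M x ω * Ψ M y ω) atTop (𝓝 (k x y)))
    (hequi : ∀ g a, ∀ᶠ M in atTop, ∀ ω, Ψ M (z a) ((T M g).symm ω) = Ψ M (act g (z a)) ω)
    (hgood : ∀ a, ∀ᶠ M in atTop, ∀ ω, Ψ M (z a) ω ≠ 0 → ω ∈ Good M) :
    ∀ᶠ M in atTop, ∃ F : Ω M → ℝ, 0 < ∑ ω, F ω ^ 2 ∧ (∀ ω, F ω ≠ 0 → ω ∈ Good M) ∧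
      ∀ g, ∑ ω, (F ((T M g).symm ω) - F ω) ^ 2 ≤ 3 * ε * ∑ ω, F ω ^ 2 := by
  classical
  have := Fintype.ofFinite G₀
  set S := ∑ a, ∑ a', p a * p a' * k (z a) (z a') with hSdef
  set N : G₀ → ℝ := fun g => ∑ a, ∑ a', p a * p a' * k (act g (z a)) (z a') with hNdef
  let F : ∀ M, Ω M → ℝ := fun M ω => ∑ a, p a * Ψ M (z a) ω
  have hF2 : Tendsto (fun M => ∑ ω, F M ω ^ 2) atTop (𝓝 S) := by
    have e : ∀ M, ∑ ω, F M ω ^ 2 = ∑ a, ∑ a', p a * p a' *
        ∑ ω, Ψ M (z a) ω * Ψ M (z a') ω := by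
      intro M
      simp only [F, sq]
      exact bilin' p (fun a => Ψ M (z a)) (fun a => Ψ M (z a))
    simp only [e]
    refine tendsto_finsetSum _ fun a _ => tendsto_finsetSum _ fun a' _ => ?_
    exact (hlim _ _).const_mul _
  have hFg : ∀ g, Tendsto (fun M => ∑ ω, F M ((T M g).symm ω) * F M ω) atTop (𝓝 (N g)) := by
    intro g
    have hev : ∀ᶠ M in atTop, ∀ a, ∀ ω, Ψ M (z a) ((T M g).symm ω) = Ψ M (act g (z a)) ω :=
      Filter.eventually_all.2 fun a => hequi g a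
    have e : ∀ᶠ M in atTop, ∑ a, ∑ a', p a * p a' *
        ∑ ω, Ψ M (act g (z a)) ω * Ψ M (z a') ω
          = ∑ ω, F M ((T M g).symm ω) * F M ω := by
      filter_upwards [hev] with M hM
      simp only [F]
      rw [bilin' p (fun a ω => Ψ M (z a) ((T M g).symm ω)) (fun a => Ψ M (z a))]
      refine Finset.sum_congr rfl fun a ha => Finset.sum_congr rfl fun a' _ => ?_
      congr 1
      refine Finset.sum_congr rfl fun ω _ => ?_
      rw [hM a ω]
    refine Tendsto.congr' e ?_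
    refine tendsto_finsetSum _ fun a _ => tendsto_finsetSum _ fun a' _ => ?_
    exact (hlim _ _).const_mul _
  have hgoodA : ∀ᶠ M in atTop, ∀ a, ∀ ω, Ψ M (z a) ω ≠ 0 → ω ∈ Good M :=
    Filter.eventually_all.2 hgood
  have hpos : ∀ᶠ M in atTop, 0 < ∑ ω, F M ω ^ 2 := hF2.eventually (lt_mem_nhds hS)
  have hmain : ∀ g, ∀ᶠ M in atTop,
      ∑ ω, (F M ((T M g).symm ω) - F M ω) ^ 2 ≤ 3 * ε * ∑ ω, F M ω ^ 2 := by
    intro g
    have hlimg : Tendsto (fun M => 3 * ε * (∑ ω, F M ω ^ 2)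
        - (2 * (∑ ω, F M ω ^ 2) - 2 * ∑ ω, F M ((T M g).symm ω) * F M ω)) atTop
        (𝓝 (3 * ε * S - (2 * S - 2 * N g))) :=
      (hF2.const_mul _).sub ((hF2.const_mul _).sub ((hFg g).const_mul _))
    have hval : 0 < 3 * ε * S - (2 * S - 2 * N g) := by
      have h1 := hinv g
      have h2 : (1 - ε) * S ≤ N g := h1
      nlinarith
    filter_upwards [hlimg.eventually (lt_mem_nhds hval)] with M hM
    have e1 : ∑ ω, (F M ((T M g).symm ω) - F M ω) ^ 2
        = 2 * (∑ ω, F M ω ^ 2) - 2 * ∑ ω, F M ((T M g).symm ω) * F M ω := by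
      have h1 : ∑ ω, F M ((T M g).symm ω) ^ 2 = ∑ ω, F M ω ^ 2 :=
        Equiv.sum_comp (T M g).symm (fun ω => F M ω ^ 2)
      have h2 : ∑ ω, (F M ((T M g).symm ω) - F M ω) ^ 2
          = ∑ ω, F M ((T M g).symm ω) ^ 2 + ∑ ω, F M ω ^ 2
            - 2 * ∑ ω, F M ((T M g).symm ω) * F M ω := by
        rw [Finset.mul_sum, ← Finset.sum_add_distrib, ← Finset.sum_sub_distrib]
        refine Finset.sum_congr rfl fun ω _ => ?_
        ring
      rw [h2, h1]; ring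
    rw [e1]
    linarith
  have hall : ∀ᶠ M in atTop, ∀ g : G₀,
      ∑ ω, (F M ((T M g).symm ω) - F M ω) ^ 2 ≤ 3 * ε * ∑ ω, F M ω ^ 2 :=
    Filter.eventually_all.2 hmain
  filter_upwards [hpos, hall, hgoodA] with M h1 h2 h3
  refine ⟨F M, h1, ?_, h2⟩
  intro ω hω
  by_contra hcon
  apply hω
  simp only [F]
  refine Finset.sum_eq_zero fun a ha => ?_
  by_cases h0 : Ψ M (z a) ω = 0
  · rw [h0, mul_zero]
  · exact absurd (h3 a ω h0) hcon

end Vale.Agent.P196.H964
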