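import Vale.Agent.P196.AM.Defs
import Vale.Agent.P196.R987.Push
import Vale.Agent.P196.H964.SupAbs

/-!
# P196, AM7b: class fields at level `J` pulled back to level `M`, and the conclusion `AI`
-/

open Filter Topology Equiv

namespace Vale.Agent.P196.H964

open Vale.Agent.P196.AM Vale.Agent.P196.S0

section proj

/-- projection of classes -/
def proj (J M : ℕ) (u : Tor M) : Tor J :=
  (((u.1.val : ℕ) : ZMod (2 ^ (J + 1))), ((u.2.val : ℕ) : ZMod (2 ^ (J + 1))))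

variable {ι : Type*}

/-- pull back of a class field -/
def pull (J M : ℕ) (z : Fld J ι) : Fld M ι := fun u f i => z (proj J M u) f i

theorem proj_sub_ev {J M : ℕ} (h : J ≤ M) (d : Fin 2) (u : Tor M) :
    proj J M (u - ev M d) = proj J M u - ev J d := by
  have hd : 2 ^ (J + 1) ∣ 2 ^ (M + 1) := pow_dvd_pow 2 (by omega)
  have key : ∀ x y : ZMod (2 ^ (M + 1)), (((x - y).val : ℕ) : ZMod (2 ^ (J + 1)))
      = ((x.val : ℕ) : ZMod (2 ^ (J + 1))) - ((y.val : ℕ) : ZMod (2 ^ (J + 1))) := by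
    intro x y
    rw [ZMod.natCast_val, ZMod.natCast_val, ZMod.natCast_val, ZMod.cast_sub hd]
  have k0 : (((0 : ZMod (2 ^ (M + 1))).val : ℕ) : ZMod (2 ^ (J + 1))) = 0 := by simp
  have k1 : (((1 : ZMod (2 ^ (M + 1))).val : ℕ) : ZMod (2 ^ (J + 1))) = 1 := by
    rw [ZMod.natCast_val, ZMod.cast_one hd]
  unfold proj ev
  split_ifs with h0
  · simp only [Prod.fst_sub, Prod.snd_sub, key, k0, k1, Prod.mk_sub_mk]
  · simp only [Prod.fst_sub, Prod.snd_sub, key, k0, k1, Prod.mk_sub_mk]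

theorem pull_tr [DecidableEq ι] {J M : ℕ} (h : J ≤ M) (f0 : ι) (d : Fin 2) (z : Fld J ι) :
    pull J M (tr f0 d z) = tr f0 d (pull J M z) := by
  funext u f i
  simp only [pull, tr, proj_sub_ev h]

theorem proj_val {J M : ℕ} (u : Tor M) :
    (proj J M u).1.val = u.1.val % 2 ^ (J + 1) ∧ (proj J M u).2.val = u.2.val % 2 ^ (J + 1) := by
  constructor
  · exact ZMod.val_natCast _ _
  · exact ZMod.val_natCast _ _

theorem wd_proj {J M : ℕ} (u : Tor M) :
    wd J (proj J M u).1 = u.1.val % 2 ^ J ∧ wd J (proj J M u).2 = u.2.val % 2 ^ J := by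
  unfold wd
  rw [(proj_val u).1, (proj_val u).2]
  constructor
  · exact Nat.mod_mod_of_dvd _ (pow_dvd_pow 2 (Nat.le_succ _))
  · exact Nat.mod_mod_of_dvd _ (pow_dvd_pow 2 (Nat.le_succ _))

theorem far_mono {J M R a : ℕ} (h : J ≤ M) (h1 : R < a % 2 ^ J) (h2 : a % 2 ^ J + R < 2 ^ J) :
    R < a % 2 ^ M ∧ a % 2 ^ M + R < 2 ^ M := by
  have e : (a % 2 ^ M) % 2 ^ J = a % 2 ^ J := Nat.mod_mod_of_dvd _ (pow_dvd_pow 2 h)
  have h3 : 2 ^ J * (a % 2 ^ M / 2 ^ J) + a % 2 ^ J = a % 2 ^ M := by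
    rw [← e]; exact Nat.div_add_mod _ _
  have h4 : a % 2 ^ M / 2 ^ J < 2 ^ (M - J) := by
    rw [Nat.div_lt_iff_lt_mul (by positivity), ← pow_add, Nat.sub_add_cancel h]
    exact Nat.mod_lt _ (by positivity)
  constructor
  · omega
  · have h5 : 2 ^ J * (a % 2 ^ M / 2 ^ J) + 2 ^ J ≤ 2 ^ M := by
      calc 2 ^ J * (a % 2 ^ M / 2 ^ J) + 2 ^ J = 2 ^ J * (a % 2 ^ M / 2 ^ J + 1) := by ring
        _ ≤ 2 ^ J * 2 ^ (M - J) := Nat.mul_le_mul_left _ h4
        _ = 2 ^ M := by rw [← pow_add, Nat.add_sub_cancel' h]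
    omega

/-- both coordinates are farther than `R` from the lines of level `≥ J` -/
def FarT (J R : ℕ) (u : Tor J) : Prop := FarC J R u.1 ∧ FarC J R u.2

theorem FarT.up {J M R : ℕ} (h : J ≤ M) {u : Tor M} (hu : FarT J R (proj J M u)) :
    FarT M R u := by
  obtain ⟨⟨h1, h2⟩, h3, h4⟩ := hu
  rw [(wd_proj u).1] at h1 h2
  rw [(wd_proj u).2] at h3 h4
  exact ⟨far_mono h h1 h2, far_mono h h3 h4⟩

theorem FarT.mono {J R R' : ℕ} (h : R' ≤ R) {u : Tor J} (hu : FarT J R u) : FarT J R' u := by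
  obtain ⟨⟨h1, h2⟩, h3, h4⟩ := hu
  refine ⟨⟨by omega, by omega⟩, by omega, by omega⟩

/-- the face property of a set of vertices with radius `R` (helper743's `IsLoc.face`) -/
def Face (R : ℕ) (E : Set (ℤ × ℤ)) : Prop :=
  ∀ (j : ℕ) (u v : ℤ × ℤ), (2 : ℤ) ^ (j + 1) ∣ v.1 - u.1 → (2 : ℤ) ^ (j + 1) ∣ v.2 - u.2 →
    Wang.Far j R u.1 → Wang.Far j R u.2 → (u ∈ E ↔ v ∈ E)

theorem Face.mono {R R' : ℕ} (h : R ≤ R') {E : Set (ℤ × ℤ)} (hE : Face R E) : Face R' E := by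
  intro j u v h1 h2 h3 h4
  refine hE j u v h1 h2 ⟨?_, ?_⟩ ⟨?_, ?_⟩
  · have := h3.1; omega
  · have := h3.2; omega
  · have := h4.1; omega
  · have := h4.2; omega

/-- representative of a class -/
def rep (J : ℕ) (u : Tor J) : ℤ × ℤ := ((u.1.val : ℤ), (u.2.val : ℤ))

open Classical in
/-- the permutation of the floors at a class -/
noncomputable def sE (J : ℕ) (E : Set (ℤ × ℤ)) (a : Perm ι) (u : Tor J) : Perm ι :=
  if rep J u ∈ E then a else 1

theorem far_rep {J R j : ℕ} {u : Tor J} (h1 : R < u.1.val % 2 ^ j) (h2 : u.1.val % 2 ^ j + R < 2 ^ j)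
    (h3 : R < u.2.val % 2 ^ j) (h4 : u.2.val % 2 ^ j + R < 2 ^ j) :
    Wang.Far j R (rep J u).1 ∧ Wang.Far j R (rep J u).2 := by
  unfold rep Wang.Far
  simp only
  refine ⟨⟨?_, ?_⟩, ?_, ?_⟩
  all_goals (first | exact_mod_cast h1 | exact_mod_cast h2 | exact_mod_cast h3 | exact_mod_cast h4)

theorem pull_pm {J M R : ℕ} {E : Set (ℤ × ℤ)} (hE : Face R E) (a : Perm ι)
    (z : Fld J ι) (hz : ∀ u, ¬ FarT J R u → ∀ f i, z u f i = 0) :
    pull J M (pm (sE J E a) z) = pm (sE M E a) (pull J M z) := by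
  funext u f i
  unfold pull pm
  by_cases hu : FarT J R (proj J M u)
  · have e : sE J E a (proj J M u) = sE M E a u := by
      unfold sE
      have hp := proj_val (J := J) u
      have hd : ∀ x : ℕ, (2 : ℤ) ^ (J + 1) ∣ (x : ℤ) - ((x % 2 ^ (J + 1) : ℕ) : ℤ) := by
        intro x
        have : ((x % 2 ^ (J + 1) : ℕ) : ℤ) = (x : ℤ) % 2 ^ (J + 1) := by push_cast; rfl
        rw [this]
        exact Int.dvd_self_sub_emod
      obtain ⟨⟨h1, h2⟩, h3, h4⟩ := hu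
      obtain ⟨f1, f2⟩ := far_rep (j := J) (R := R) (u := proj J M u) h1 h2 h3 h4
      have := hE J (rep J (proj J M u)) (rep M u)
        (by unfold rep; simp only; rw [hp.1]; exact hd _)
        (by unfold rep; simp only; rw [hp.2]; exact hd _) f1 f2
      classical
      exact if_congr this rfl rfl
    simp only [e]
  · simp only [hz _ hu]

end proj

/-- mean square of a field with weights `q` -/
noncomputable def nrm {ι : Type*} [Fintype ι] (q : Fin 2 → ℝ) {J : ℕ} (v : Fld J ι) : ℝ :=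
  (∑ u, ∑ f, ∑ i, q i * v u f i ^ 2) / 4 ^ (J + 1)

/-- class permutations which only see the classes far from the lines -/
def Inv {ι : Type*} (R J : ℕ) (s : Tor J → Perm ι) : Prop :=
  ∀ j ≤ J, ∀ u v : Tor J, u.1.val % 2 ^ (j + 1) = v.1.val % 2 ^ (j + 1) →
    u.2.val % 2 ^ (j + 1) = v.2.val % 2 ^ (j + 1) →
    R < u.1.val % 2 ^ j → u.1.val % 2 ^ j + R < 2 ^ j →
    R < u.2.val % 2 ^ j → u.2.val % 2 ^ j + R < 2 ^ j → s u = s v

theorem inv_sE {ι : Type*} {R : ℕ} {E : Set (ℤ × ℤ)} (hE : Face R E) (J : ℕ) (a : Perm ι) :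
    Inv R J (sE J E a) := by
  intro j _ u v h1 h2 h3 h4 h5 h6
  obtain ⟨f1, f2⟩ := far_rep (J := J) (j := j) (R := R) (u := u) h3 h4 h5 h6
  have hd : ∀ x y : ℕ, x % 2 ^ (j + 1) = y % 2 ^ (j + 1) → (2 : ℤ) ^ (j + 1) ∣ (y : ℤ) - (x : ℤ) := by
    intro x y h
    have h' : (x : ℤ) ≡ (y : ℤ) [ZMOD ((2 ^ (j + 1) : ℕ) : ℤ)] := by
      rw [Int.natCast_modEq_iff]; exact h
    have := h'.dvd
    push_cast at this
    exact this
  have := hE j (rep J u) (rep J v) (hd _ _ h1) (hd _ _ h2) f1 f2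
  classical
  exact if_congr this rfl rfl

/-- the statement of helper211's `am6` -/
def AM6 (ι : Type*) [Fintype ι] [DecidableEq ι] (q : Fin 2 → ℝ) : Prop :=
  ∀ (R : ℕ) (ε : ℝ), 0 < ε → ∃ (J : ℕ) (α : Type) (_ : Fintype α) (p : α → ℝ) (z : α → Fld J ι),
    (∀ a u, ¬ FarT J R u → ∀ f i, z a u f i = 0) ∧
    0 < (∑ a, ∑ a', p a * p a' * Real.exp (-(1/2) * nrm q (z a - z a'))) ∧
    (∀ f0 d, (1 - ε) * (∑ a, ∑ a', p a * p a' * Real.exp (-(1/2) * nrm q (z a - z a')))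
      ≤ ∑ a, ∑ a', p a * p a' * Real.exp (-(1/2) * nrm q (tr f0 d (z a) - z a'))) ∧
    (∀ s : Tor J → Perm ι, Inv R J s →
      (1 - ε) * (∑ a, ∑ a', p a * p a' * Real.exp (-(1/2) * nrm q (z a - z a')))
      ≤ ∑ a, ∑ a', p a * p a' * Real.exp (-(1/2) * nrm q (pm s (z a) - z a')))

/-- the unit vectors of `ℤ²` -/
def eZ (d : Fin 2) : Z2 := if d = 0 then (1, 0) else (0, 1)

/-- generators: translations of a floor, or a set with a permutation -/
inductive GenCode (ι : Type*)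
  | T (f0 : ι) (d : Fin 2)
  | C (E : Set (ℤ × ℤ)) (a : Perm ι)

instance {ι : Type*} : Nonempty (GenCode ι) := ⟨.C ∅ 1⟩

/-- the permutation of a code -/
noncomputable def GenCode.perm {ι : Type*} [DecidableEq ι] : GenCode ι → Perm (Z2 × ι)
  | .T f0 d => dP (Pi.single f0 (eZ d))
  | .C E a => eP E a

/-- action on class fields -/
noncomputable def GenCode.act {ι : Type*} [DecidableEq ι] (J : ℕ) : GenCode ι → Fld J ι → Fld J ι
  | .T f0 d => tr f0 d
  | .C E a => pm (sE J E a)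

theorem AI_fst_of {ι : Type} [Fintype ι] [DecidableEq ι] (LS : Set (Set Z2))
    {Ctx : Type} [Fintype Ctx] [DecidableEq Ctx] (cx : ℕ → ℤ × ℤ → Ctx) (P : Profile)
    (q : Fin 2 → ℝ) (ham : AM6 ι q)
    (hlim : ∀ (J : ℕ) (z z' : Fld J ι), Tendsto (fun M => ∑ ω : Om M ι Ctx,
      Psi P (pull J M z) ω * Psi P (pull J M z') ω) atTop
        (𝓝 (Real.exp (-(1/2) * nrm q (z - z')))))
    (hT : ∀ (f0 : ι) (d : Fin 2) (J : ℕ) (z : Fld J ι), ∀ᶠ M in atTop,
      (∀ ω : Om M ι Ctx, Psi P (tr f0 d (pull J M z)) (liftT f0 d ω) = Psi P (pull J M z) ω) ∧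
      (∀ ω : Om M ι Ctx, Psi P (pull J M z) ω ≠ 0 →
        rz M (cx M) (liftT f0 d ω) ∘ dP (Pi.single f0 (eZ d)) = rz M (cx M) ω))
    (hC : ∀ E ∈ LS, ∃ R : ℕ, Face R E ∧ ∀ a : Perm ι, ∃ hat : ∀ M, Perm (Om M ι Ctx),
      ∀ (J : ℕ) (z : Fld J ι), (∀ u, ¬ FarT J R u → ∀ f i, z u f i = 0) → ∀ᶠ M in atTop,
      (∀ ω, Psi P (pm (sE M E a) (pull J M z)) (hat M ω) = Psi P (pull J M z) ω) ∧
      (∀ ω, Psi P (pull J M z) ω ≠ 0 → rz M (cx M) (hat M ω) ∘ eP E a = rz M (cx M) ω)) :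
    AI Prod.fst (gens ι LS) := by
  classical
  apply AI_of_push
  intro K hK ε hε
  -- codes
  have hcode : ∀ g ∈ K, ∃ c : GenCode ι, c.perm = g ∧ (∀ E a, c = .C E a → E ∈ LS) := by
    intro g hg
    rcases hK hg with ⟨E, hE, a, _, rfl⟩ | ⟨i, e, he, rfl⟩
    · exact ⟨.C E a, rfl, fun E' a' h => by cases h; exact hE⟩
    · rcases he with rfl | rfl
      · exact ⟨.T i 0, rfl, fun _ _ h => by cases h⟩
      · exact ⟨.T i 1, rfl, fun _ _ h => by cases h⟩
  choose! c hc hcE using hcode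
  -- radii
  have hC' : ∀ E : Set (ℤ × ℤ), ∃ (R : ℕ) (hat : Perm ι → ∀ M, Perm (Om M ι Ctx)), E ∈ LS →
      Face R E ∧ ∀ (a : Perm ι) (J : ℕ) (z : Fld J ι),
        (∀ u, ¬ FarT J R u → ∀ f i, z u f i = 0) → ∀ᶠ M in atTop,
      (∀ ω, Psi P (pm (sE M E a) (pull J M z)) (hat a M ω) = Psi P (pull J M z) ω) ∧
      (∀ ω, Psi P (pull J M z) ω ≠ 0 → rz M (cx M) (hat a M ω) ∘ eP E a = rz M (cx M) ω) := by
    intro E
    by_cases hE : E ∈ LS
    · obtain ⟨R, hF, h⟩ := hC E hE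
      choose hat hhat using h
      exact ⟨R, hat, fun _ => ⟨hF, hhat⟩⟩
    · exact ⟨0, fun _ _ => 1, fun h => absurd h hE⟩
  choose Rf hat hCC using hC'
  have hRex : ∃ R : ℕ, ∀ g ∈ K, ∀ E a, c g = .C E a → Rf E ≤ R := by
    refine ⟨K.sup fun g => match c g with | .T _ _ => 0 | .C E _ => Rf E, ?_⟩
    intro g hg E a h
    have := Finset.le_sup (f := fun g => match c g with
      | GenCode.T _ _ => 0 | GenCode.C E _ => Rf E) hg
    simp only [h] at this
    exact this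
  obtain ⟨R, hR⟩ := hRex
  obtain ⟨J, α, _, p, z, hz, hS, htr, hpm⟩ := ham R (ε / 3) (by positivity)
  -- the lifts
  let T : ∀ M, K → Perm (Om M ι Ctx) := fun M g =>
    match c g with
    | .T f0 d => liftT f0 d
    | .C E a => hat E a M
  let act : K → Fld J ι → Fld J ι := fun g => (c g).act J
  let Good : ∀ M, Set (Om M ι Ctx) := fun M => {ω | ∃ a, Psi P (pull J M (z a)) ω ≠ 0}
  have hinv : ∀ g : K, (1 - ε / 3) * (∑ a, ∑ a', p a * p a' *
      Real.exp (-(1/2) * nrm q (z a - z a')))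
      ≤ ∑ a, ∑ a', p a * p a' * Real.exp (-(1/2) * nrm q (act g (z a) - z a')) := by
    intro g
    rcases hcg : c g with ⟨f0, d⟩ | ⟨E, a⟩
    · have : act g = tr f0 d := by simp only [act, hcg]; rfl
      rw [this]
      exact htr f0 d
    · have : act g = pm (sE J E a) := by simp only [act, hcg]; rfl
      rw [this]
      exact hpm _ (inv_sE ((hCC E (hcE g g.2 E a hcg)).1.mono (hR g g.2 E a hcg)) J a)
  have hzE : ∀ (E : Set (ℤ × ℤ)) (a : Perm ι) (g : K), c g = .C E a → ∀ b u, ¬ FarT J (Rf E) u →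
      ∀ f i, z b u f i = 0 := by
    intro E a g hcg b u hu
    exact hz b u fun h => hu (h.mono (hR g g.2 E a hcg))
  have hequi : ∀ (g : K) b, ∀ᶠ M in atTop, ∀ ω : Om M ι Ctx,
      Psi P (pull J M (z b)) ((T M g).symm ω) = Psi P (pull J M (act g (z b))) ω := by
    intro g b
    rcases hcg : c g with ⟨f0, d⟩ | ⟨E, a⟩
    · filter_upwards [hT f0 d J (z b), eventually_ge_atTop J] with M hM hJM ω
      have e1 : act g (z b) = tr f0 d (z b) := by simp only [act, hcg]; rfl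
      have e2 : T M g = liftT f0 d := by simp only [T, hcg]
      rw [e1, pull_tr hJM, e2, ← hM.1 ((liftT f0 d).symm ω), Equiv.apply_symm_apply]
    · have hEL := hcE g g.2 E a hcg
      have hz' := hzE E a g hcg b
      filter_upwards [(hCC E hEL).2 a J (z b) hz', eventually_ge_atTop J] with M hM hJM ω
      have e1 : act g (z b) = pm (sE J E a) (z b) := by simp only [act, hcg]; rfl
      have e2 : T M g = hat E a M := by simp only [T, hcg]
      rw [e1, pull_pm (hCC E hEL).1 a (z b) hz', e2, ← hM.1 ((hat E a M).symm ω),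
        Equiv.apply_symm_apply]
  have hreal : ∀ (g : K) b, ∀ᶠ M in atTop, ∀ ω : Om M ι Ctx, Psi P (pull J M (z b)) ω ≠ 0 →
      rz M (cx M) (T M g ω) ∘ (g : Perm (Z2 × ι)) = rz M (cx M) ω := by
    intro g b
    have hgp := hc g g.2
    rcases hcg : c g with ⟨f0, d⟩ | ⟨E, a⟩
    · filter_upwards [hT f0 d J (z b)] with M hM ω hω
      have e2 : T M g = liftT f0 d := by simp only [T, hcg]
      rw [hcg] at hgp
      rw [e2, ← hgp]
      exact hM.2 ω hω
    · have hEL := hcE g g.2 E a hcg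
      have hz' := hzE E a g hcg b
      filter_upwards [(hCC E hEL).2 a J (z b) hz'] with M hM ω hω
      have e2 : T M g = hat E a M := by simp only [T, hcg]
      rw [hcg] at hgp
      rw [e2, ← hgp]
      exact hM.2 ω hω
  have main := almost_inv_abs (fun x y : Fld J ι => Real.exp (-(1/2) * nrm q (x - y))) act p z
    (ε := ε / 3) (by positivity) hS hinv (fun M x ω => Psi P (pull J M x) ω) T Good
    (hlim J) hequi (fun b => Filter.Eventually.of_forall fun M ω hω => ⟨b, hω⟩)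
  have hrealall : ∀ᶠ M in atTop, ∀ (g : K) b, ∀ ω : Om M ι Ctx, Psi P (pull J M (z b)) ω ≠ 0 →
      rz M (cx M) (T M g ω) ∘ (g : Perm (Z2 × ι)) = rz M (cx M) ω :=
    Filter.eventually_all.2 fun g => Filter.eventually_all.2 fun b => hreal g b
  obtain ⟨M, ⟨F, hF0, hFG, hFi⟩, hreM⟩ := (main.and hrealall).exists
  refine ⟨Om M ι Ctx, inferInstance, rz M (cx M), F, ?_, ?_, ?_⟩
  · by_contra hcon
    push Not at hcon
    simp [hcon] at hF0
  · refine ⟨2 ^ M, fun ω _ x => ?_⟩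
    have hpos : (0 : ℤ) < 2 ^ M := by positivity
    have h1 := Int.emod_nonneg x.1.1 hpos.ne'
    have h2 := Int.emod_lt_of_pos x.1.1 hpos
    have h3 := Int.mul_ediv_add_emod x.1.1 (2 ^ M)
    unfold rz
    simp only
    rw [abs_le]
    split_ifs
    · constructor <;> nlinarith
    · constructor <;> nlinarith
  · intro g hg
    refine ⟨T M ⟨g, hg⟩, ?_, ?_⟩
    · intro ω hω
      obtain ⟨b, hb⟩ := hFG ω hω
      exact hreM ⟨g, hg⟩ b ω hb
    · have h1 := hFi ⟨g, hg⟩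
      have h2 : ∑ ω, (F (T M ⟨g, hg⟩ ω) - F ω) ^ 2
          = ∑ ω, (F ((T M ⟨g, hg⟩).symm ω) - F ω) ^ 2 := by
        rw [← Equiv.sum_comp (T M ⟨g, hg⟩) (fun ω => (F ((T M ⟨g, hg⟩).symm ω) - F ω) ^ 2)]
        refine Finset.sum_congr rfl fun ω _ => ?_
        rw [Equiv.symm_apply_apply]
        ring
      rw [h2]
      calc _ ≤ 3 * (ε / 3) * ∑ ω, F ω ^ 2 := h1
        _ = ε * ∑ ω, F ω ^ 2 := by ring

end Vale.Agent.P196.H964
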