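import Vale.Agent.P196.AM.Real
import Vale.Agent.P196.AM.HLim
import Vale.Agent.P196.H211.AM6
import Vale.Agent.P196.H964.AM7b
import Vale.Agent.P196.R987.Tiling

/-!
# P196: the amenability side, assembled
-/

open Filter Topology Equiv

namespace Vale.Agent.P196.H964

open Vale.Agent.P196.AM Vale.Agent.P196.S0

theorem AM6_of (ι : Type) [Fintype ι] [DecidableEq ι] {q : Fin 2 → ℝ} (hq : ∀ i, 0 ≤ q i) :
    AM6 ι q := by
  intro R ε hε
  obtain ⟨J, _, n, p, z, _, hz, hS, hT, hC⟩ := H211.am6 (ι := ι) q hq R hε 0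
  refine ⟨J, Fin n, inferInstance, p, z, ?_, hS, ?_, ?_⟩
  · intro a u hu f i
    exact hz a u (fun h => hu h) f i
  · intro f0 d
    exact hT f0 d
  · intro s hs
    exact hC s fun j hj u v h1 h2 _ => hs j hj u v h1.1 h1.2 h2.1.1 h2.1.2 h2.2.1 h2.2.2

section

variable {ι : Type} [Fintype ι] [DecidableEq ι] {Ctx : Type} [Fintype Ctx] [DecidableEq Ctx]

omit [DecidableEq ι] in
/-- class fields are eventually small -/
theorem eventually_small {J : ℕ} (z : Fld J ι) :
    ∀ᶠ M : ℕ in atTop, ∀ (u : Tor M) f i, |pull J M z u f i| ≤ 2 ^ M / 16 := by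
  obtain ⟨B, hB⟩ : ∃ B : ℝ, ∀ u f i, |z u f i| ≤ B := by
    refine ⟨∑ u, ∑ f, ∑ i, |z u f i|, fun u f i => ?_⟩
    calc |z u f i| ≤ ∑ i, |z u f i| :=
          Finset.single_le_sum (f := fun i => |z u f i|) (fun _ _ => abs_nonneg _) (Finset.mem_univ i)
      _ ≤ ∑ f, ∑ i, |z u f i| :=
          Finset.single_le_sum (f := fun f => ∑ i, |z u f i|)
            (fun _ _ => Finset.sum_nonneg fun _ _ => abs_nonneg _) (Finset.mem_univ f)
      _ ≤ ∑ u, ∑ f, ∑ i, |z u f i| :=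
          Finset.single_le_sum (f := fun u => ∑ f, ∑ i, |z u f i|)
            (fun _ _ => Finset.sum_nonneg fun _ _ => Finset.sum_nonneg fun _ _ => abs_nonneg _)
            (Finset.mem_univ u)
  have hlim : Tendsto (fun M : ℕ => (2 : ℝ) ^ M) atTop atTop :=
    tendsto_pow_atTop_atTop_of_one_lt one_lt_two
  filter_upwards [hlim.eventually_ge_atTop (16 * B)] with M hM u f i
  have := hB (proj J M u) f i
  unfold pull
  linarith

theorem hT_of (P : Profile) (cx : ℕ → ℤ × ℤ → Ctx)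
    (hcell : ∀ (M : ℕ) (u v : Z2), u.1 / 2 ^ M = v.1 / 2 ^ M → Wang.nl M u.2 = Wang.nl M v.2 →
      cx M u = cx M v) (f0 : ι) (d : Fin 2) (J : ℕ) (z : Fld J ι) :
    ∀ᶠ M in atTop,
      (∀ ω : Om M ι Ctx, Psi P (tr f0 d (pull J M z)) (liftT f0 d ω) = Psi P (pull J M z) ω) ∧
      (∀ ω : Om M ι Ctx, Psi P (pull J M z) ω ≠ 0 →
        rz M (cx M) (liftT f0 d ω) ∘ dP (Pi.single f0 (eZ d)) = rz M (cx M) ω) := by
  filter_upwards [eventually_small z, eventually_ge_atTop 4] with M hM h4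
  refine ⟨fun ω => Psi_liftT' P h4 _ hM f0 d ω, fun ω hω => ?_⟩
  exact rz_liftT h4 (cx M) (hcell M) (good_of_ne P _ hM ω hω) f0 d

theorem cl_rep {M : ℕ} (u : Tor M) : cl M (rep M u) = u := by
  unfold cl rep
  ext1
  · exact cast_val M u.1
  · exact cast_val M u.2

theorem dvd_of_cl {M : ℕ} {u v : ℤ × ℤ} (h : cl M u = cl M v) :
    (2 : ℤ) ^ (M + 1) ∣ v.1 - u.1 ∧ (2 : ℤ) ^ (M + 1) ∣ v.2 - u.2 := by
  unfold cl at h
  rw [Prod.mk.injEq] at h
  constructor
  · have := (ZMod.intCast_eq_intCast_iff_dvd_sub _ _ _).1 h.1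
    push_cast at this
    exact this
  · have := (ZMod.intCast_eq_intCast_iff_dvd_sub _ _ _).1 h.2
    push_cast at this
    exact this

theorem hC_of (P : Profile) {LS : Set (Set Z2)} (cx : ℕ → Z2 → Ctx)
    (h : AMTiling LS Ctx cx) : ∀ E ∈ LS, ∃ R : ℕ, Face R E ∧ ∀ a : Perm ι,
      ∃ hat : ∀ M, Perm (Om M ι Ctx),
      ∀ (J : ℕ) (z : Fld J ι), (∀ u, ¬ FarT J R u → ∀ f i, z u f i = 0) → ∀ᶠ M in atTop,
      (∀ ω, Psi P (pm (sE M E a) (pull J M z)) (hat M ω) = Psi P (pull J M z) ω) ∧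
      (∀ ω, Psi P (pull J M z) ω ≠ 0 → rz M (cx M) (hat M ω) ∘ eP E a = rz M (cx M) ω) := by
  intro E hE
  obtain ⟨R, hface, hline⟩ := h.loc E hE
  have hF : Face R E := fun j u v h1 h2 h3 h4 => hface j u v h1 h2 h3 h4
  refine ⟨R, hF, fun a => ⟨fun M => liftE M R E (cx M) a, fun J z hz => ?_⟩⟩
  have hlim : Tendsto (fun M : ℕ => 2 ^ M) atTop atTop :=
    tendsto_pow_atTop_atTop_of_one_lt (one_lt_two : (1 : ℕ) < 2)
  filter_upwards [eventually_small z, eventually_ge_atTop J,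
    hlim.eventually_ge_atTop (16 * R + 1)] with M hM hJM hRM
  have hzM : ∀ u, ¬ (FarC M R u.1 ∧ FarC M R u.2) → ∀ f i, pull J M z u f i = 0 := by
    intro u hu f i
    exact hz _ (fun hf => hu (hf.up hJM)) f i
  have hpm : pm (sE M E a) (pull J M z) = pm (AM.sE M R E a) (pull J M z) := by
    funext u f i
    unfold pm
    by_cases hu : FarC M R u.1 ∧ FarC M R u.2
    · have e : sE M E a u = AM.sE M R E a u := by
        classical
        unfold sE AM.sE
        refine if_congr ?_ rfl rfl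
        constructor
        · intro hr
          exact ⟨hu, rep M u, hr, cl_rep u⟩
        · rintro ⟨_, v, hv, hvu⟩
          have hd := dvd_of_cl (M := M) (u := rep M u) (v := v) (by rw [cl_rep, hvu])
          obtain ⟨f1, f2⟩ := far_rep (J := M) (j := M) (R := R) (u := u) hu.1.1 hu.1.2 hu.2.1 hu.2.2
          exact (hface M (rep M u) v hd.1 hd.2 f1 f2).2 hv
      rw [e]
    · rw [hzM u hu, hzM u hu]
  constructor
  · intro ω
    rw [hpm]
    exact Psi_liftE' P (by omega) (cx M) E a _ hzM ω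
  · intro ω hω
    refine rz_liftE (by omega) (cx M) ?_ ?_ (good_of_ne P _ hM ω hω) a
    · intro u v huv h1 h2
      have hd := dvd_of_cl huv
      exact hface M u v hd.1 hd.2 h1 h2
    · intro u v huv h1 hc
      have hd := dvd_of_cl huv
      refine hline M u v ?_ hd.1 hd.2 h1 hc
      have : ((16 * R + 1 : ℕ) : ℤ) ≤ ((2 ^ M : ℕ) : ℤ) := by exact_mod_cast hRM
      push_cast at this
      linarith

/-- **coordinate one**: almost invariant measures for the generators. -/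
theorem AI_fst [Nonempty Ctx] {LS : Set (Set Z2)} (cx : ℕ → Z2 → Ctx) (h : AMTiling LS Ctx cx) :
    AI Prod.fst (gens ι LS) := by
  obtain ⟨q, hq, hlim⟩ := exists_hlim Ctx
  exact AI_fst_of LS cx P0 q (AM6_of ι hq) (fun J z z' => hlim ι J z z')
    (hT_of P0 cx h.cell) (hC_of P0 cx h)

end

/-- **Amenability of the local permutation group of the tiling.** -/
theorem isAmenable_grp_wang (ι : Type) [Fintype ι] [DecidableEq ι] :
    Vale.Agent.P196.IsAmenable (grp ι Wang.LS) :=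
  isAmenable_grp Wang.LS (AI_fst _ amTiling_fst) (AI_snd_of_swap Wang.LS (AI_fst _ amTiling_snd))

end Vale.Agent.P196.H964
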