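import Vale.Agent.P196.H34.Super

/-!
# P196, AM7b: from the superposition theorem to almost invariant vectors

`Ω M` is the finite probability-like space of tables at scale `M`, `Ψ M z` the product vector of
the field `z`, `T M g` the lift of the generator `g`.
-/

open Matrix Filter Topology
open scoped Matrix

namespace Vale.Agent.P196.H964

open Vale.Agent.P196.H34

lemma bilin {α Ω : Type*} [Fintype Ω] (A : Finset α) (p : α → ℝ) (f g : α → Ω → ℝ) :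
    ∑ ω, (∑ a ∈ A, p a * f a ω) * (∑ a ∈ A, p a * g a ω)
      = ∑ a ∈ A, ∑ a' ∈ A, p a * p a' * ∑ ω, f a ω * g a' ω := by
  have h1 : ∀ ω, (∑ a ∈ A, p a * f a ω) * (∑ a ∈ A, p a * g a ω)
      = ∑ a ∈ A, ∑ a' ∈ A, p a * p a' * (f a ω * g a' ω) := by
    intro ω
    rw [Finset.sum_mul_sum]
    refine Finset.sum_congr rfl fun a _ => Finset.sum_congr rfl fun a' _ => ?_
    ring
  simp only [h1]
  rw [Finset.sum_comm]
  refine Finset.sum_congr rfl fun a _ => ?_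
  rw [Finset.sum_comm]
  refine Finset.sum_congr rfl fun a' _ => ?_
  rw [Finset.mul_sum]

/-- **Almost invariant vectors** from the superposition theorem, asymptotic overlaps and
asymptotic equivariance. -/
theorem almost_inv {G₀ : Type*} [Finite G₀] {ι κ : Type*} [Fintype ι] [DecidableEq ι]
    [Fintype κ] [DecidableEq κ]
    (L : Matrix ι κ ℝ) (P : G₀ → Matrix ι ι ℝ) (hP : ∀ g, P g * (P g)ᵀ = 1) (b : G₀ → ι → ℝ)
    {ε : ℝ} (hε : 0 < ε)
    (hsmall : ∀ g, (∑ i, ∑ j, (P g * (L * Lᵀ) * (P g)ᵀ - L * Lᵀ) i j ^ 2)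
      + (b g ⬝ᵥ (1 + L * Lᵀ)⁻¹.mulVec (b g)) / 2 ≤ ε)
    {Ω : ℕ → Type*} [∀ M, Fintype (Ω M)]
    (Ψ : ∀ M, (ι → ℝ) → Ω M → ℝ) (T : ∀ M, G₀ → Equiv.Perm (Ω M)) (Good : ∀ M, Set (Ω M))
    (hlim : ∀ z z' : ι → ℝ, Tendsto (fun M => ∑ ω, Ψ M z ω * Ψ M z' ω) atTop
      (𝓝 (Real.exp (-(1/2) * ((z - z') ⬝ᵥ (z - z'))))))
    (hequi : ∀ g a, ∀ᶠ M in atTop, ∀ ω, Ψ M (L.mulVec a) ((T M g).symm ω)
      = Ψ M ((P g).mulVec (L.mulVec a) - b g) ω)
    (hgood : ∀ z, ∀ᶠ M in atTop, ∀ ω, Ψ M z ω ≠ 0 → ω ∈ Good M) :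
    ∀ᶠ M in atTop, ∃ F : Ω M → ℝ, 0 < ∑ ω, F ω ^ 2 ∧ (∀ ω, F ω ≠ 0 → ω ∈ Good M) ∧
      ∀ g, ∑ ω, (F ((T M g).symm ω) - F ω) ^ 2 ≤ 5 * ε * ∑ ω, F ω ^ 2 := by
  classical
  have := Fintype.ofFinite G₀
  obtain ⟨A, p, hp0, hS, hg⟩ := superposition L P hP b hε
  set S := ∑ a ∈ A, ∑ a' ∈ A, p a * p a' * Real.exp (-(1/2) *
          ((L.mulVec a - L.mulVec a') ⬝ᵥ (L.mulVec a - L.mulVec a'))) with hSdef
  set N : G₀ → ℝ := fun g => ∑ a ∈ A, ∑ a' ∈ A, p a * p a' * Real.exp (-(1/2) *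
            (((P g).mulVec (L.mulVec a) - b g - L.mulVec a') ⬝ᵥ
              ((P g).mulVec (L.mulVec a) - b g - L.mulVec a'))) with hNdef
  let F : ∀ M, Ω M → ℝ := fun M ω => ∑ a ∈ A, p a * Ψ M (L.mulVec a) ω
  -- the norms
  have hF2 : Tendsto (fun M => ∑ ω, F M ω ^ 2) atTop (𝓝 S) := by
    have e : ∀ M, ∑ ω, F M ω ^ 2 = ∑ a ∈ A, ∑ a' ∈ A, p a * p a' *
        ∑ ω, Ψ M (L.mulVec a) ω * Ψ M (L.mulVec a') ω := by
      intro M
      simp only [F, sq]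
      exact bilin A p (fun a => Ψ M (L.mulVec a)) (fun a => Ψ M (L.mulVec a))
    simp only [e]
    refine tendsto_finsetSum _ fun a _ => tendsto_finsetSum _ fun a' _ => ?_
    exact (hlim _ _).const_mul _
  have hFg : ∀ g, Tendsto (fun M => ∑ ω, F M ((T M g).symm ω) * F M ω) atTop (𝓝 (N g)) := by
    intro g
    have hev : ∀ᶠ M in atTop, ∀ a ∈ A, ∀ ω, Ψ M (L.mulVec a) ((T M g).symm ω)
        = Ψ M ((P g).mulVec (L.mulVec a) - b g) ω := by
      rw [Filter.eventually_all_finset]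
      intro a _
      exact hequi g a
    have e : ∀ᶠ M in atTop, ∑ a ∈ A, ∑ a' ∈ A, p a * p a' *
        ∑ ω, Ψ M ((P g).mulVec (L.mulVec a) - b g) ω * Ψ M (L.mulVec a') ω
          = ∑ ω, F M ((T M g).symm ω) * F M ω := by
      filter_upwards [hev] with M hM
      simp only [F]
      rw [bilin A p (fun a ω => Ψ M (L.mulVec a) ((T M g).symm ω)) (fun a => Ψ M (L.mulVec a))]
      refine Finset.sum_congr rfl fun a ha => Finset.sum_congr rfl fun a' _ => ?_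
      congr 1
      refine Finset.sum_congr rfl fun ω _ => ?_
      rw [hM a ha ω]
    refine Tendsto.congr' e ?_
    refine tendsto_finsetSum _ fun a _ => tendsto_finsetSum _ fun a' _ => ?_
    exact (hlim _ _).const_mul _
  have hgoodA : ∀ᶠ M in atTop, ∀ a ∈ A, ∀ ω, Ψ M (L.mulVec a) ω ≠ 0 → ω ∈ Good M := by
    rw [Filter.eventually_all_finset]
    intro a _
    exact hgood _
  have hpos : ∀ᶠ M in atTop, 0 < ∑ ω, F M ω ^ 2 := hF2.eventually (lt_mem_nhds hS)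
  have hmain : ∀ g, ∀ᶠ M in atTop,
      ∑ ω, (F M ((T M g).symm ω) - F M ω) ^ 2 ≤ 5 * ε * ∑ ω, F M ω ^ 2 := by
    intro g
    have hlimg : Tendsto (fun M => 5 * ε * (∑ ω, F M ω ^ 2)
        - (2 * (∑ ω, F M ω ^ 2) - 2 * ∑ ω, F M ((T M g).symm ω) * F M ω)) atTop
        (𝓝 (5 * ε * S - (2 * S - 2 * N g))) :=
      (hF2.const_mul _).sub ((hF2.const_mul _).sub ((hFg g).const_mul _))
    have hval : 0 < 5 * ε * S - (2 * S - 2 * N g) := by
      have h1 := hg g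
      have h2 := hsmall g
      have h3 : (1 - ε - ε) * S ≤ N g := by
        refine le_trans ?_ h1
        refine mul_le_mul_of_nonneg_right ?_ hS.le
        linarith
      nlinarith
    filter_upwards [hlimg.eventually (lt_mem_nhds hval)] with M hM
    have e1 : ∑ ω, (F M ((T M g).symm ω) - F M ω) ^ 2
        = 2 * (∑ ω, F M ω ^ 2) - 2 * ∑ ω, F M ((T M g).symm ω) * F M ω := by
      have h1 : ∑ ω, F M ((T M g).symm ω) ^ 2 = ∑ ω, F M ω ^ 2 :=
        Equiv.sum_comp (T M g).symm (fun ω => F M ω ^ 2)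
      have h2 : ∑ ω, (F M ((T M g).symm ω) - F M ω) ^ 2
          = ∑ ω, F M ((T M g).symm ω) ^ 2 + ∑ ω, F M ω ^ 2
            - 2 * ∑ ω, F M ((T M g).symm ω) * F M ω := by
        rw [Finset.mul_sum, ← Finset.sum_add_distrib, ← Finset.sum_sub_distrib]
        refine Finset.sum_congr rfl fun ω _ => ?_
        ring
      rw [h2, h1]; ring
    rw [e1]
    linarith
  have hall : ∀ᶠ M in atTop, ∀ g : G₀,
      ∑ ω, (F M ((T M g).symm ω) - F M ω) ^ 2 ≤ 5 * ε * ∑ ω, F M ω ^ 2 :=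
    Filter.eventually_all.2 hmain
  filter_upwards [hpos, hall, hgoodA] with M h1 h2 h3
  refine ⟨F M, h1, ?_, h2⟩
  intro ω hω
  by_contra hcon
  apply hω
  simp only [F]
  refine Finset.sum_eq_zero fun a ha => ?_
  by_cases h0 : Ψ M (L.mulVec a) ω = 0
  · rw [h0, mul_zero]
  · exact absurd (h3 a ha ω h0) hcon

end Vale.Agent.P196.H964
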